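import Crest.Agent.N337.Defs

/-!
# Row 337, Free (helper46): the discrete torus (distance, characters, periodised coupling)
-/

set_option autoImplicit false

namespace Crest.Agent.N337.Free

open Finset Crest.MathPhysics.SpinModel
open scoped ComplexConjugate

variable {d L : ℕ}

/-! ### distance -/

theorem le_tdist (x y : Tor d L) (a : Fin d) : ((y a - x a).valMinAbs).natAbs ≤ tdist x y :=
  Finset.le_sup (f := fun a : Fin d => ((y a - x a).valMinAbs).natAbs) (mem_univ a)

theorem tdist_le_iff {x y : Tor d L} {r : ℕ} :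
    tdist x y ≤ r ↔ ∀ a, ((y a - x a).valMinAbs).natAbs ≤ r := by
  simp [tdist, Finset.sup_le_iff]

theorem tdist_eq (x y : Tor d L) : tdist x y = tdist 0 (y - x) := by simp [tdist]

theorem tdist_self (x : Tor d L) : tdist x x = 0 := by
  rw [← Nat.le_zero, tdist_le_iff]; simp

theorem tdist_comm (x y : Tor d L) : tdist x y = tdist y x := by
  unfold tdist
  congr 1
  funext a
  rw [← ZMod.natAbs_valMinAbs_neg, neg_sub]

theorem tdist_add_right (x y z : Tor d L) : tdist (x + z) (y + z) = tdist x y := by simp [tdist]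

theorem tdist_add_left (x y z : Tor d L) : tdist (z + x) (z + y) = tdist x y := by simp [tdist]

theorem tdist_triangle (x y z : Tor d L) : tdist x z ≤ tdist x y + tdist y z := by
  refine tdist_le_iff.2 fun a => ?_
  have h := ZMod.natAbs_valMinAbs_add_le (y a - x a) (z a - y a)
  rw [show y a - x a + (z a - y a) = z a - x a by ring] at h
  exact h.trans ((Int.natAbs_add_le _ _).trans (add_le_add (le_tdist x y a) (le_tdist y z a)))

theorem tdist_eq_zero {x y : Tor d L} : tdist x y = 0 ↔ x = y := by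
  refine ⟨fun h => funext fun a => ?_, fun h => h ▸ tdist_self x⟩
  have h1 := tdist_le_iff.1 h.le a
  rw [Nat.le_zero, Int.natAbs_eq_zero, ZMod.valMinAbs_eq_zero, sub_eq_zero] at h1
  exact h1.symm

theorem tdist_le_half [NeZero L] (x y : Tor d L) : tdist x y ≤ L / 2 :=
  tdist_le_iff.2 fun _ => ZMod.natAbs_valMinAbs_le _

theorem card_ball_le [NeZero L] (x : Tor d L) (r : ℕ) :
    (univ.filter fun y => tdist x y ≤ r).card ≤ (2 * r + 1) ^ d := by
  have h : (Fintype.piFinset fun _ : Fin d => Finset.Icc (-(r : ℤ)) r).card = (2 * r + 1) ^ d := by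
    rw [Fintype.card_piFinset, Finset.prod_const, Int.card_Icc, card_univ, Fintype.card_fin]
    congr 1
    omega
  rw [← h]
  refine Finset.card_le_card_of_injOn (fun y a => (y a - x a).valMinAbs) (fun y hy => ?_)
    fun y _ y' _ hyy => funext fun a => ?_
  · simp only [coe_filter, mem_univ, true_and, Set.mem_ofPred_eq, tdist_le_iff] at hy
    simp only [Finset.mem_coe, Fintype.mem_piFinset, Finset.mem_Icc]
    intro a
    have := hy a
    omega
  · simpa using ZMod.injective_valMinAbs (congrFun hyy a)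

theorem card_Tor [NeZero L] : Fintype.card (Tor d L) = L ^ d := by simp [ZMod.card]

/-! ### characters -/

section chi

variable [NeZero L]

theorem vol_pos : (0 : ℝ) < (L : ℝ) ^ d := pow_pos (Nat.cast_pos.2 (NeZero.pos L)) d

theorem chi_comm (k x : Tor d L) : chi k x = chi x k := by simp [chi, mul_comm]

theorem chi_add (k x y : Tor d L) : chi k (x + y) = chi k x * chi k y := by
  simp [chi, mul_add, AddChar.map_add_eq_mul, Finset.prod_mul_distrib]

theorem chi_add_left (k l x : Tor d L) : chi (k + l) x = chi k x * chi l x := by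
  rw [chi_comm, chi_add, chi_comm x, chi_comm x]

@[simp] theorem chi_zero (k : Tor d L) : chi k 0 = 1 := by simp [chi]

@[simp] theorem chi_zero_left (x : Tor d L) : chi 0 x = 1 := by simp [chi]

theorem norm_chi (k x : Tor d L) : ‖chi k x‖ = 1 := by
  simp [chi, ZMod.stdAddChar_apply, Circle.norm_coe]

theorem chi_neg (k x : Tor d L) : chi k (-x) = conj (chi k x) := by
  simp only [chi, map_prod, Pi.neg_apply, mul_neg, AddChar.map_neg_eq_conj]

theorem chi_neg_left (k x : Tor d L) : chi (-k) x = conj (chi k x) := by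
  rw [chi_comm, chi_neg, chi_comm]

theorem chi_sub (k x y : Tor d L) : chi k (x - y) = chi k x * conj (chi k y) := by
  rw [sub_eq_add_neg, chi_add, chi_neg]

theorem abs_re_chi_le (k x : Tor d L) : |(chi k x).re| ≤ 1 :=
  (Complex.abs_re_le_norm _).trans (norm_chi k x).le

/-- orthogonality -/
theorem sum_chi (x : Tor d L) : ∑ k, chi k x = if x = 0 then (L : ℂ) ^ d else 0 := by
  have h := Finset.prod_univ_sum (fun _ : Fin d => (univ : Finset (ZMod L)))
    fun a j => ZMod.stdAddChar (j * x a)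
  rw [Fintype.piFinset_univ] at h
  refine h.symm.trans ?_
  simp only [AddChar.sum_mulShift _ (ZMod.isPrimitive_stdAddChar L), ZMod.card]
  split_ifs with hx
  · simp [hx]
  · obtain ⟨a, ha⟩ := Function.ne_iff.1 hx
    exact Finset.prod_eq_zero (mem_univ a) (by simp [show ¬ x a = 0 from ha])

theorem sum_chi' (k : Tor d L) : ∑ x, chi k x = if k = 0 then (L : ℂ) ^ d else 0 := by
  simp only [chi_comm k, sum_chi]

/-- Fourier inversion -/
theorem fourier_inv (f : Tor d L → ℂ) (x : Tor d L) :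
    ∑ k, (∑ y, conj (chi k y) * f y) * chi k x = (L : ℂ) ^ d * f x := by
  simp only [Finset.sum_mul]
  rw [Finset.sum_comm]
  have h : ∀ y, ∑ k, conj (chi k y) * f y * chi k x = if x = y then (L : ℂ) ^ d * f y else 0 := by
    intro y
    have : ∀ k, conj (chi k y) * f y * chi k x = chi k (x - y) * f y := fun k => by
      rw [chi_sub]; ring
    simp only [this, ← Finset.sum_mul, sum_chi, sub_eq_zero, ite_mul, zero_mul]
  simp [h]

/-- Parseval -/
theorem parseval (f g : Tor d L → ℂ) :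
    ∑ k, conj (∑ y, conj (chi k y) * f y) * (∑ y, conj (chi k y) * g y) =
      (L : ℂ) ^ d * ∑ y, conj (f y) * g y := by
  simp only [map_sum, map_mul, Complex.conj_conj, Finset.sum_mul]
  rw [Finset.sum_comm, Finset.mul_sum]
  refine Finset.sum_congr rfl fun y _ => ?_
  rw [mul_left_comm, ← fourier_inv g y, Finset.mul_sum]
  exact Finset.sum_congr rfl fun k _ => by ring

theorem chi_tcast (k : Tor d L) (z : Fin d → ℤ) :
    chi k (tcast L z) = Complex.exp (((∑ a, mom k a * (z a : ℝ) : ℝ) : ℂ) * Complex.I) := by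
  rw [chi, Complex.ofReal_sum, Finset.sum_mul, Complex.exp_sum]
  refine Finset.prod_congr rfl fun a _ => ?_
  have h := ZMod.stdAddChar_coe (N := L) ((k a).valMinAbs * z a)
  rw [Int.cast_mul, ZMod.coe_valMinAbs] at h
  refine h.trans (congrArg _ ?_)
  simp only [mom]
  push_cast
  ring

theorem re_chi_tcast (k : Tor d L) (z : Fin d → ℤ) :
    (chi k (tcast L z)).re = Real.cos (∑ a, mom k a * (z a : ℝ)) := by
  rw [chi_tcast, Complex.exp_ofReal_mul_I_re]

theorem abs_mom_le (k : Tor d L) (a : Fin d) : |mom k a| ≤ Real.pi := by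
  have hL : (0 : ℝ) < L := Nat.cast_pos.2 (NeZero.pos L)
  have h1 := ZMod.natAbs_valMinAbs_le (k a)
  have h2 : |((k a).valMinAbs : ℝ)| * 2 ≤ L := by
    have : |(k a).valMinAbs| * 2 ≤ (L : ℤ) := by rw [Int.abs_eq_natAbs]; omega
    exact_mod_cast this
  rw [mom, abs_div, abs_mul, abs_of_pos hL, abs_of_pos Real.two_pi_pos, div_le_iff₀ hL]
  nlinarith [Real.pi_pos]

theorem sum_ker (f : Tor d L → ℝ) : ∑ x, ker f x = f 0 := by
  simp only [ker]
  rw [← Finset.sum_div, Finset.sum_comm]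
  have h : ∀ k : Tor d L, ∑ x, f k * (chi k x).re = if k = 0 then f k * (L : ℝ) ^ d else 0 := by
    intro k
    rw [← Finset.mul_sum, ← Complex.re_sum, sum_chi']
    split_ifs
    · norm_cast
    · simp
  simp only [h, Finset.sum_ite_eq', mem_univ, if_true]
  exact mul_div_cancel_right₀ _ vol_pos.ne'

theorem ker_one (x : Tor d L) : ker (fun _ => 1) x = if x = 0 then 1 else 0 := by
  simp only [ker, one_mul]
  rw [← Complex.re_sum, sum_chi]
  split_ifs
  · rw [div_eq_one_iff_eq vol_pos.ne']; norm_cast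
  · simp

theorem ker_neg (f : Tor d L → ℝ) (x : Tor d L) : ker f (-x) = ker f x := by
  simp [ker, chi_neg]

theorem ker_le_zero {f : Tor d L → ℝ} (hf : ∀ k, 0 ≤ f k) (x : Tor d L) : ker f x ≤ ker f 0 := by
  refine div_le_div_of_nonneg_right (Finset.sum_le_sum fun k _ => ?_) vol_pos.le
  rw [chi_zero]
  exact mul_le_mul_of_nonneg_left ((le_abs_self _).trans (abs_re_chi_le k x)) (hf k)

end chi

/-! ### the coupling -/

section coup

variable {J : (Fin d → ℤ) → ℝ}

/-- the support of the coupling -/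
noncomputable def sp (hJ : Coup J) : Finset (Fin d → ℤ) := hJ.fin.toFinset

theorem mem_sp (hJ : Coup J) {z : Fin d → ℤ} : z ∈ sp hJ ↔ J z ≠ 0 := by simp [sp]

theorem finsum_eq (hJ : Coup J) (g : (Fin d → ℤ) → ℝ) :
    ∑ᶠ z, J z * g z = ∑ z ∈ sp hJ, J z * g z :=
  finsum_eq_sum_of_support_subset _ fun z hz => by
    simpa [sp] using left_ne_zero_of_mul hz

theorem sum_sp_neg {M : Type} [AddCommMonoid M] (hJ : Coup J) (g : (Fin d → ℤ) → M) :
    ∑ z ∈ sp hJ, g (-z) = ∑ z ∈ sp hJ, g z :=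
  Finset.sum_equiv (Equiv.neg _) (fun z => by simp [mem_sp, hJ.symm]) fun _ _ => rfl

theorem eps_eq (hJ : Coup J) (n : ℕ) (p : Fin d → ℝ) :
    eps n J p = spinVal n * ∑ z ∈ sp hJ, J z * (1 - Real.cos (∑ a, p a * (z a : ℝ))) := by
  rw [eps, finsum_eq hJ]

theorem torJ_eq (hJ : Coup J) (x y : Tor d L) :
    torJ J L x y = ∑ z ∈ sp hJ, if tcast L z = y - x then J z else 0 :=
  finsum_eq_sum_of_support_subset _ fun z hz => by
    simp only [Function.mem_support, ne_eq, ite_eq_right_iff, not_forall] at hz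
    simpa [sp] using hz.2

theorem tcast_neg (z : Fin d → ℤ) : tcast L (-z) = -tcast L z := by
  funext a; simp [tcast]

theorem torJ_nonneg (hJ : Coup J) (x y : Tor d L) : 0 ≤ torJ J L x y := by
  rw [torJ_eq hJ]
  exact Finset.sum_nonneg fun z _ => by split_ifs; exacts [hJ.nonneg z, le_rfl]

theorem torJ_symm (hJ : Coup J) (x y : Tor d L) : torJ J L x y = torJ J L y x := by
  rw [torJ_eq hJ, torJ_eq hJ, ← sum_sp_neg hJ]
  refine Finset.sum_congr rfl fun z _ => ?_
  simp only [tcast_neg, hJ.symm, neg_eq_iff_eq_neg, neg_sub]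

theorem torJ_add (x y z : Tor d L) : torJ J L (x + z) (y + z) = torJ J L x y := by
  simp [torJ]

theorem sum_torJ [NeZero L] (hJ : Coup J) (x : Tor d L) (g : Tor d L → ℂ) :
    ∑ y, (torJ J L x y : ℂ) * g y = ∑ z ∈ sp hJ, (J z : ℂ) * g (x + tcast L z) := by
  simp only [torJ_eq hJ, Complex.ofReal_sum, Finset.sum_mul]
  rw [Finset.sum_comm]
  refine Finset.sum_congr rfl fun z _ => ?_
  rw [Finset.sum_eq_single (x + tcast L z)]
  · simp
  · intro y _ hy
    rw [if_neg fun h => hy (by rw [h]; simp)]; simp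
  · simp

theorem sum_torJ_real [NeZero L] (hJ : Coup J) (x : Tor d L) (g : Tor d L → ℝ) :
    ∑ y, torJ J L x y * g y = ∑ z ∈ sp hJ, J z * g (x + tcast L z) := by
  exact_mod_cast sum_torJ hJ x fun y => (g y : ℂ)

theorem exists_ferro (hJ : Coup J) : ∃ L0 : ℕ, ∀ L, L0 ≤ L → Ferro (torJ J L) := by
  refine ⟨((sp hJ).sup fun z => univ.sup fun a => (z a).natAbs) + 1, fun L hL =>
    ⟨torJ_symm hJ, torJ_nonneg hJ, fun x => ?_⟩⟩
  rw [torJ_eq hJ]
  refine Finset.sum_eq_zero fun z hz => ?_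
  split_ifs with h
  · have : z = 0 := funext fun a => by
      have h1 : ((z a : ℤ) : ZMod L) = 0 := by simpa [tcast] using congrFun h a
      have h2 : (z a).natAbs ≤ (sp hJ).sup fun z => univ.sup fun a => (z a).natAbs :=
        le_trans (Finset.le_sup (f := fun a => (z a).natAbs) (mem_univ a))
          (Finset.le_sup (f := fun z : Fin d → ℤ => univ.sup fun a => (z a).natAbs) hz)
      exact Int.eq_zero_of_dvd_of_natAbs_lt_natAbs
        ((ZMod.intCast_zmod_eq_zero_iff_dvd _ _).1 h1) (by simp; omega)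
    rw [this, hJ.zero]
  · rfl

theorem spinVal_pos {n : ℕ} (hn : 1 ≤ n) : 0 < spinVal n := by
  have : (0 : ℝ) < n := Nat.cast_pos.2 hn
  unfold spinVal; positivity

theorem eps_nonneg (hJ : Coup J) (n : ℕ) (p : Fin d → ℝ) : 0 ≤ eps n J p := by
  rw [eps_eq hJ]
  refine mul_nonneg (by unfold spinVal; positivity) (Finset.sum_nonneg fun z _ => ?_)
  exact mul_nonneg (hJ.nonneg z) (sub_nonneg.2 (Real.cos_le_one _))

theorem eps_le (hJ : Coup J) (n : ℕ) (p : Fin d → ℝ) :
    eps n J p ≤ 2 * (spinVal n * ∑ z ∈ sp hJ, J z) := by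
  rw [eps_eq hJ, mul_left_comm, Finset.mul_sum _ _ (2 : ℝ)]
  refine mul_le_mul_of_nonneg_left (Finset.sum_le_sum fun z _ => ?_)
    (by unfold spinVal; positivity)
  nlinarith [hJ.nonneg z, Real.neg_one_le_cos (∑ a, p a * (z a : ℝ))]

theorem epsT_zero (hJ : Coup J) (n : ℕ) : epsT n J (0 : Tor d L) = 0 := by
  simp [epsT, eps_eq hJ, mom]

/-- the characters are eigenfunctions of the Laplacian -/
theorem lap_chi [NeZero L] (hJ : Coup J) (n : ℕ) (k x : Tor d L) :
    ((spinVal n : ℝ) : ℂ) * ∑ y, ((torJ J L x y : ℝ) : ℂ) * (chi k x - chi k y) =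
      ((epsT n J k : ℝ) : ℂ) * chi k x := by
  rw [sum_torJ hJ x fun y => chi k x - chi k y, epsT, eps_eq hJ, Complex.ofReal_mul, mul_assoc]
  congr 1
  have h1 := sum_sp_neg hJ fun z => (J z : ℂ) * (chi k x - chi k (x + tcast L z))
  have h2 : (2 : ℂ) * ∑ z ∈ sp hJ, (J z : ℂ) * (chi k x - chi k (x + tcast L z)) =
      2 * (((∑ z ∈ sp hJ, J z * (1 - Real.cos (∑ a, mom k a * (z a : ℝ))) : ℝ) : ℂ) *
        chi k x) := by
    rw [two_mul]
    nth_rewrite 1 [← h1]
    rw [← Finset.sum_add_distrib, Complex.ofReal_sum, Finset.sum_mul, Finset.mul_sum]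
    refine Finset.sum_congr rfl fun z _ => ?_
    rw [hJ.symm, tcast_neg, chi_add, chi_add, chi_neg, ← re_chi_tcast]
    have := Complex.add_conj (chi k (tcast L z))
    push_cast at this ⊢
    linear_combination (-(J z : ℂ) * chi k x) * this
  exact mul_left_cancel₀ two_ne_zero h2

/-- quadratic lower bound of the dispersion -/
theorem eps_lower (hJ : Coup J) {n : ℕ} (hn : 1 ≤ n) : ∃ c : ℝ, 0 < c ∧
    ∀ p : Fin d → ℝ, (∀ a, |p a| ≤ Real.pi) → c * ∑ a, p a ^ 2 ≤ eps n J p := by
  have hS := spinVal_pos hn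
  have key : ∀ z : Fin d → ℤ, ∃ C : ℝ, 0 ≤ C ∧
      ∀ p : Fin d → ℝ, 1 - Real.cos (∑ a, p a * (z a : ℝ)) ≤ C * eps n J p := by
    intro z
    have hz : z ∈ AddSubgroup.closure (Function.support J) := by rw [hJ.gen]; trivial
    induction hz using AddSubgroup.closure_induction with
    | mem z hz =>
      have hp : 0 < J z := (hJ.nonneg z).lt_of_ne' hz
      refine ⟨1 / (spinVal n * J z), by positivity, fun p => ?_⟩
      rw [one_div_mul_eq_div, le_div_iff₀ (by positivity), eps_eq hJ, mul_left_comm]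
      refine mul_le_mul_of_nonneg_left ?_ hS.le
      rw [mul_comm]
      exact Finset.single_le_sum (f := fun z => J z * (1 - Real.cos (∑ a, p a * (z a : ℝ))))
        (fun z _ => mul_nonneg (hJ.nonneg z) (sub_nonneg.2 (Real.cos_le_one _)))
        ((mem_sp hJ).2 hz)
    | zero => exact ⟨0, le_rfl, fun p => by simp⟩
    | add z w _ _ ihz ihw =>
      obtain ⟨C, hC, h1⟩ := ihz
      obtain ⟨D, hD, h2⟩ := ihw
      refine ⟨2 * C + 2 * D, by positivity, fun p => ?_⟩
      have h3 := h1 p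
      have h4 := h2 p
      simp only [Pi.add_apply, Int.cast_add, mul_add, Finset.sum_add_distrib, Real.cos_add]
      generalize (∑ a, p a * (z a : ℝ)) = s at *
      generalize (∑ a, p a * (w a : ℝ)) = t at *
      nlinarith [sq_nonneg (Real.sin s - Real.sin t), sq_nonneg (Real.cos s + Real.cos t - 2),
        Real.sin_sq_add_cos_sq s, Real.sin_sq_add_cos_sq t]
    | neg z _ ih =>
      obtain ⟨C, hC, h1⟩ := ih
      exact ⟨C, hC, fun p => by simpa using h1 p⟩
  choose C hC h using key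
  have hT : 0 ≤ ∑ a : Fin d, C (Pi.single a 1) := Finset.sum_nonneg fun a _ => hC _
  refine ⟨2 / Real.pi ^ 2 / (∑ a : Fin d, C (Pi.single a 1) + 1), by positivity, fun p hp => ?_⟩
  have h1 : 2 / Real.pi ^ 2 * ∑ a, p a ^ 2 ≤ (∑ a : Fin d, C (Pi.single a 1)) * eps n J p := by
    rw [Finset.mul_sum, Finset.sum_mul]
    refine Finset.sum_le_sum fun a _ => le_trans ?_ (h _ p)
    have : ∑ b, p b * ((Pi.single a 1 : Fin d → ℤ) b : ℝ) = p a := by
      simp [Pi.single_apply]
    rw [this]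
    linarith [Real.cos_le_one_sub_mul_cos_sq (hp a)]
  rw [div_mul_eq_mul_div, div_le_iff₀ (by positivity)]
  nlinarith [eps_nonneg hJ n p]

/-- quadratic upper bound of the dispersion along a coordinate axis -/
theorem eps_upper (hJ : Coup J) (n : ℕ) : ∃ C : ℝ, 0 ≤ C ∧
    ∀ (a : Fin d) (t : ℝ), eps n J (Pi.single a t) ≤ C * t ^ 2 := by
  have hS : 0 ≤ spinVal n := by unfold spinVal; positivity
  refine ⟨spinVal n * ∑ z ∈ sp hJ, J z * ∑ b, (z b : ℝ) ^ 2, mul_nonneg hS
    (Finset.sum_nonneg fun z _ => mul_nonneg (hJ.nonneg z) (by positivity)), fun a t => ?_⟩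
  rw [eps_eq hJ, mul_assoc, Finset.sum_mul]
  refine mul_le_mul_of_nonneg_left (Finset.sum_le_sum fun z _ => ?_) hS
  rw [mul_assoc]
  refine mul_le_mul_of_nonneg_left ?_ (hJ.nonneg z)
  have h1 : ∑ b, (Pi.single a t : Fin d → ℝ) b * (z b : ℝ) = t * z a := by
    simp [Pi.single_apply]
  have h2 : (z a : ℝ) ^ 2 ≤ ∑ b, (z b : ℝ) ^ 2 :=
    Finset.single_le_sum (f := fun b => (z b : ℝ) ^ 2) (fun _ _ => sq_nonneg _) (mem_univ a)
  rw [h1]
  nlinarith [Real.one_sub_sq_div_two_le_cos (x := t * z a), sq_nonneg t, sq_nonneg (t * z a),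
    mul_le_mul_of_nonneg_left h2 (sq_nonneg t)]

end coup

end Crest.Agent.N337.Free
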