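import Crest.Agent.N337.Free.Walk

/-!
# Row 337, Free (helper46): resolvent kernels, `free : FreeStmt`
-/

set_option autoImplicit false

namespace Crest.Agent.N337.Free

open Finset Crest.MathPhysics.SpinModel

theorem le_of_hasSum {w b c : ℕ → ℝ} {s W A D : ℝ} (h : HasSum (fun i => w i * b i) s)
    (hw : ∀ i, 0 ≤ w i) (hW : HasSum w W) (hA : 0 ≤ A) (hb : ∀ i, b i ≤ A + c i)
    (hc : ∀ M, ∑ i ∈ range M, w i * c i ≤ D) : s ≤ W * A + D := by
  refine le_of_tendsto' h.tendsto_sum_nat fun M => ?_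
  calc _ ≤ ∑ i ∈ range M, (w i * A + w i * c i) := sum_le_sum fun i _ => by
        rw [← mul_add]; exact mul_le_mul_of_nonneg_left (hb i) (hw i)
    _ ≤ _ := by
        rw [sum_add_distrib, ← Finset.sum_mul]
        exact add_le_add (mul_le_mul_of_nonneg_right (sum_le_hasSum _ (fun i _ => hw i) hW) hA)
          (hc M)

theorem hasSum_of_eq {f g : ℕ → ℝ} {a b : ℝ} (h : HasSum f a) (h1 : ∀ i, g i = f i) (h2 : b = a) :
    HasSum g b := by rw [h2, show g = f from funext h1]; exact h

variable {d L : ℕ} {J : (Fin d → ℤ) → ℝ} (hJ : Coup J) (n : ℕ)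

/-- the weights of the resolvent expansion -/
noncomputable def ww (μ : ℝ) (i : ℕ) : ℝ := (lam hJ n / (lam hJ n + μ)) ^ i / (lam hJ n + μ)

variable {μ : ℝ}

theorem ww_nonneg (hμ : 0 < μ) (i : ℕ) : 0 ≤ ww hJ n μ i := by
  have := lam_pos hJ n
  unfold ww; positivity

theorem ww_le_one (hμ : 0 < μ) (i : ℕ) : ww hJ n μ i ≤ 1 := by
  have := one_le_lam hJ n
  rw [ww, div_le_one (by positivity)]
  refine (pow_le_one₀ (by positivity) ?_).trans (by linarith)
  rw [div_le_one (by positivity)]; linarith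

theorem hasSum_ww (hμ : 0 < μ) {e : ℝ} (h0 : 0 ≤ e) (h1 : e / lam hJ n ≤ 1) :
    HasSum (fun i => ww hJ n μ i * (1 - e / lam hJ n) ^ i) (1 / (e + μ)) := by
  have hl := lam_pos hJ n
  have h2 : 0 ≤ e / lam hJ n := by positivity
  have h3 : lam hJ n / (lam hJ n + μ) < 1 := by rw [div_lt_one (by positivity)]; linarith
  have h4 : 0 ≤ lam hJ n / (lam hJ n + μ) := by positivity
  have h := (hasSum_geometric_of_lt_one (r := lam hJ n / (lam hJ n + μ) * (1 - e / lam hJ n))
    (mul_nonneg h4 (by linarith)) (by nlinarith)).div_const (lam hJ n + μ)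
  refine hasSum_of_eq h (fun i => ?_) ?_
  · rw [ww, mul_pow]; ring
  · have : 1 - lam hJ n / (lam hJ n + μ) * (1 - e / lam hJ n) = (e + μ) / (lam hJ n + μ) := by
      field_simp; ring
    rw [this]; field_simp

theorem hasSum_ww' (hμ : 0 < μ) : HasSum (ww hJ n μ) (1 / μ) := by
  simpa using hasSum_ww hJ n hμ le_rfl (by simp)

theorem mul_ww_le (hμ : 0 < μ) (i : ℕ) : μ * ww hJ n μ i * rho i ≤ min (rho i ^ 3) (μ * rho i) := by
  have hr := rho_pos i
  refine le_min ?_ (mul_le_mul_of_nonneg_right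
    (mul_le_of_le_one_right hμ.le (ww_le_one hJ n hμ i)) hr.le)
  have hl := lam_pos hJ n
  have h1 := sum_le_hasSum (range (i + 1)) (fun j _ => ww_nonneg hJ n hμ j) (hasSum_ww' hJ n hμ)
  have h2 : ((i : ℝ) + 1) * ww hJ n μ i ≤ ∑ j ∈ range (i + 1), ww hJ n μ j := by
    have := Finset.card_nsmul_le_sum (range (i + 1)) (ww hJ n μ) (ww hJ n μ i) fun j hj => by
      refine div_le_div_of_nonneg_right (pow_le_pow_of_le_one (by positivity) ?_
        (Nat.lt_succ_iff.1 (mem_range.1 hj))) (by positivity)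
      rw [div_le_one (by positivity)]; linarith
    simpa using this
  have h3 : ((i : ℝ) + 1) * (μ * ww hJ n μ i) ≤ ((i : ℝ) + 1) * rho i ^ 2 := by
    have := h2.trans h1
    rw [le_div_iff₀ hμ] at this
    rw [rho_sq]; linarith
  have h4 := le_of_mul_le_mul_left h3 (by positivity)
  nlinarith

variable [NeZero L]

theorem hasSum_ker (hμ : 0 < μ) (g : Tor d L → ℝ) (x : Tor d L) :
    HasSum (fun i => ww hJ n μ i * ker (fun k => uu hJ n k ^ i * g k) x)
      (ker (fun k => g k / (epsT n J k + μ)) x) := by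
  have h := (hasSum_sum (s := univ) fun k _ => (hasSum_ww hJ n hμ (eps_nonneg hJ n (mom k))
    (eps_div_le hJ n k)).mul_right (g k * (chi k x).re)).div_const ((L : ℝ) ^ d)
  refine hasSum_of_eq h (fun i => ?_) ?_
  · rw [ker, ← mul_div_assoc, Finset.mul_sum]
    congr 1
    exact sum_congr rfl fun k _ => by rw [uu, epsT]; ring
  · rw [ker]
    congr 1
    exact sum_congr rfl fun k _ => by rw [epsT]; ring

theorem hasSum_res (hμ : 0 < μ) (t : ℕ) (x : Tor d L) :
    HasSum (fun i => ww hJ n μ i * qq hJ n (t + i) x)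
      (ker (fun k => uu hJ n k ^ t * (1 / (epsT n J k + μ))) x) := by
  simpa only [qq, add_comm t, pow_add, mul_one_div] using
    hasSum_ker hJ n hμ (fun k => uu hJ n k ^ t) x

/-- smoothing with `μ / (μ + ε)` -/
theorem smooth_le (hμ : 0 < μ) {g : Tor d L → ℝ} {x : Tor d L} {A B : ℝ} (hA : 0 ≤ A) (hB : 0 ≤ B)
    (h : ∀ t, ker (fun k => uu hJ n k ^ t * g k) x ≤ A + B * rho t) (t : ℕ) :
    ker (fun k => uu hJ n k ^ t * (μ / (μ + epsT n J k) * g k)) x ≤ A + B * (8 * √μ) := by
  have h1 := hasSum_ker hJ n hμ (fun k => μ * (uu hJ n k ^ t * g k)) x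
  have e1 : ∀ i, ww hJ n μ i * ker (fun k => uu hJ n k ^ i * (μ * (uu hJ n k ^ t * g k))) x =
      μ * ww hJ n μ i * ker (fun k => uu hJ n k ^ (t + i) * g k) x := fun i => by
    simp only [ker, Finset.sum_div, Finset.mul_sum]
    exact sum_congr rfl fun k _ => by ring
  have e2 : (fun k => μ * (uu hJ n k ^ t * g k) / (epsT n J k + μ)) =
      fun k => uu hJ n k ^ t * (μ / (μ + epsT n J k) * g k) := funext fun k => by
    rw [add_comm μ]; ring
  simp only [e1, e2] at h1
  have h2 := (hasSum_ww' hJ n hμ).mul_left μ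
  rw [mul_one_div_cancel hμ.ne'] at h2
  have := le_of_hasSum (c := fun i => B * rho i) (D := B * (8 * √μ)) h1
    (fun i => mul_nonneg hμ.le (ww_nonneg hJ n hμ i)) h2 hA
    (fun i => (h _).trans (add_le_add le_rfl
      (mul_le_mul_of_nonneg_left (rho_anti (Nat.le_add_left _ _)) hB))) fun M => by
      refine le_trans ?_ (mul_le_mul_of_nonneg_left (sum_min_le hμ M) hB)
      rw [Finset.mul_sum]
      refine sum_le_sum fun i _ => ?_
      rw [mul_left_comm]
      exact mul_le_mul_of_nonneg_left (mul_ww_le hJ n hμ i) hB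
  rwa [one_mul] at this

end Crest.Agent.N337.Free

namespace Crest.Agent.N337

open Finset Free

theorem free : FreeStmt := by
  intro d n J hd hn hJ
  obtain ⟨C, hC, hq⟩ := exists_heat hJ n hd hn
  obtain ⟨L0, hL0⟩ := exists_ferro hJ
  refine ⟨48 * C + 1, L0, by linarith, fun L _ hL => ⟨hL0 L hL, fun k => eps_nonneg hJ n _,
    lap_chi hJ n, fun μ hμ => ?_⟩⟩
  have hV : (0 : ℝ) < (L : ℝ) ^ d := vol_pos
  have k1 : ∀ h : ℝ, 0 < h → ∀ (x : Tor d L) (t : ℕ),
      ker (fun k => uu hJ n k ^ t * (1 / (epsT n J k + h))) x ≤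
        (48 * C + 1) / max 1 (tdist 0 x : ℝ) + (48 * C + 1) / (h * (L : ℝ) ^ d) := by
    intro h hh x t
    have hR : (1 : ℝ) ≤ max 1 (tdist 0 x : ℝ) := le_max_left _ _
    generalize hRd : max 1 (tdist 0 x : ℝ) = R at hR
    have hη : 0 < 1 / R ^ 2 := by positivity
    have := le_of_hasSum (c := fun i => C * min (rho i ^ 3) (1 / R ^ 2 * rho i))
      (D := C * (8 * √(1 / R ^ 2))) (hasSum_res hJ n hh t x) (ww_nonneg hJ n hh)
      (hasSum_ww' hJ n hh) (by positivity : 0 ≤ C / (L : ℝ) ^ d) (fun i => by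
        refine (hq L _ x).trans ?_
        have := rho_anti (Nat.le_add_left i t)
        have := rho_pos (t + i)
        rw [hRd]
        gcongr) fun M => by
        refine le_trans ?_ (mul_le_mul_of_nonneg_left (sum_min_le hη M) hC)
        rw [Finset.mul_sum]
        refine sum_le_sum fun i _ => mul_le_of_le_one_left ?_ (ww_le_one hJ n hh i)
        have := rho_pos i
        positivity
    rw [one_div (R ^ 2), Real.sqrt_inv, Real.sqrt_sq (by linarith), div_mul_div_comm, one_mul,
      ← mul_assoc, ← div_eq_mul_inv, add_comm] at this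
    refine this.trans (add_le_add ?_ ?_) <;> gcongr <;> linarith
  have k2 : ∀ h : ℝ, 0 < h → ∀ (x : Tor d L) (t : ℕ),
      ker (fun k => uu hJ n k ^ t * (1 / (epsT n J k + h))) x ≤
        C / (h * (L : ℝ) ^ d) + 6 * C * rho t := by
    intro h hh x t
    have := le_of_hasSum (c := fun i => C * rho (t + i) ^ 3) (D := 6 * C * rho t)
      (hasSum_res hJ n hh t x) (ww_nonneg hJ n hh)
      (hasSum_ww' hJ n hh) (by positivity : 0 ≤ C / (L : ℝ) ^ d) (fun i =>
        (hq L _ x).trans (add_le_add le_rfl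
          (mul_le_mul_of_nonneg_left (min_le_left _ _) hC))) fun M => by
        have h1 := mul_le_mul_of_nonneg_left (sum_rho_cube_le t M) hC
        have h2 := mul_nonneg hC (rho_pos (t + M)).le
        refine le_trans ?_ (h1.trans (by linarith))
        rw [Finset.mul_sum]
        refine sum_le_sum fun i _ => mul_le_of_le_one_left ?_ (ww_le_one hJ n hh i)
        have := rho_pos (t + i)
        positivity
    rwa [div_mul_div_comm, one_mul] at this
  refine ⟨fun x => ?_, fun x => by simpa using k1 μ hμ x 0, fun h hh x => ?_⟩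
  · simpa using (hasSum_res hJ n hμ 0 x).nonneg fun i =>
      mul_nonneg (ww_nonneg hJ n hμ i) (qq_nonneg hJ n _ x)
  have two : ∀ A B : ℝ, 0 ≤ A → 0 ≤ B →
      (∀ t, ker (fun k => uu hJ n k ^ t * (1 / (epsT n J k + h))) x ≤ A + B * rho t) →
      ker (fun k => (μ / (μ + epsT n J k)) ^ 2 / (epsT n J k + h)) x ≤ A + B * (8 * √μ) := by
    intro A B hA hB h1
    have h2 := smooth_le hJ n hμ (A := A + B * (8 * √μ)) (B := 0) (by positivity) le_rfl
      (fun t => by simpa only [zero_mul, add_zero] using smooth_le hJ n hμ hA hB h1 t) 0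
    simp only [pow_zero, one_mul, zero_mul, add_zero] at h2
    refine le_trans (le_of_eq ?_) h2
    congr 1
    funext k
    ring
  rw [← min_add_add_right]
  refine le_min ?_ ?_
  · refine (two _ _ (by positivity) (by positivity) (k2 h hh x)).trans ?_
    rw [add_comm]
    refine add_le_add ?_ (by gcongr; linarith)
    nlinarith [Real.sqrt_nonneg μ]
  · simpa using two _ 0 (by positivity) le_rfl fun t => by simpa using k1 h hh x t

end Crest.Agent.N337
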